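import Mathlib
import Vale.Agent.P080.C1.Basic

/-!
# Partial derivatives of smooth functions on `ℝ³`
-/

namespace Vale.Agent.P080.C1.Energy

open scoped ContDiff Topology
open Set Filter MeasureTheory Vale.Agent.P080

/-- `F` is differentiable at `x` with partial derivatives `d` -/
def HD (F : E3 → ℝ) (x : E3) (d : Fin 3 → ℝ) : Prop :=
  DifferentiableAt ℝ F x ∧ ∀ i, pd i F x = d i

variable {F G : E3 → ℝ} {x : E3} {d e : Fin 3 → ℝ}

lemma HD.self (h : DifferentiableAt ℝ F x) : HD F x fun i => pd i F x := ⟨h, fun _ => rfl⟩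

lemma HD.congr (h : HD F x d) (he : ∀ i, d i = e i) : HD F x e :=
  ⟨h.1, fun i => (h.2 i).trans (he i)⟩

lemma HD.const (c : ℝ) : HD (fun _ => c) x fun _ => 0 :=
  ⟨differentiableAt_const _, fun i => by simp [pd]⟩

lemma HD.add (hF : HD F x d) (hG : HD G x e) : HD (fun y => F y + G y) x fun i => d i + e i :=
  ⟨hF.1.add hG.1, fun i => by
    dsimp only; rw [← hF.2 i, ← hG.2 i]; simp only [pd]; rw [fderiv_fun_add hF.1 hG.1]; simp⟩

lemma HD.sub (hF : HD F x d) (hG : HD G x e) : HD (fun y => F y - G y) x fun i => d i - e i :=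
  ⟨hF.1.sub hG.1, fun i => by
    dsimp only; rw [← hF.2 i, ← hG.2 i]; simp only [pd]; rw [fderiv_fun_sub hF.1 hG.1]; simp⟩

lemma HD.mul (hF : HD F x d) (hG : HD G x e) :
    HD (fun y => F y * G y) x fun i => d i * G x + F x * e i :=
  ⟨hF.1.mul hG.1, fun i => by
    dsimp only; rw [← hF.2 i, ← hG.2 i]; simp only [pd]; rw [fderiv_fun_mul hF.1 hG.1]; simp; ring⟩

lemma HD.comp (hF : HD F x d) {g : ℝ → ℝ} {g' : ℝ} (hg : HasDerivAt g g' (F x)) :
    HD (fun y => g (F y)) x fun i => g' * d i := by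
  have h := hg.comp_hasFDerivAt x hF.1.hasFDerivAt
  refine ⟨h.differentiableAt, fun i => ?_⟩
  dsimp only; rw [← hF.2 i]
  simp only [pd]
  rw [show (fun y => g (F y)) = g ∘ F from rfl, h.fderiv]
  simp

lemma HD.inv (hF : HD F x d) (h : F x ≠ 0) :
    HD (fun y => (F y)⁻¹) x fun i => -((F x) ^ 2)⁻¹ * d i := hF.comp (hasDerivAt_inv h)

lemma HD.log (hF : HD F x d) (h : F x ≠ 0) :
    HD (fun y => Real.log (F y)) x fun i => (F x)⁻¹ * d i := hF.comp (Real.hasDerivAt_log h)

lemma HD.sqrt (hF : HD F x d) (h : F x ≠ 0) :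
    HD (fun y => Real.sqrt (F y)) x fun i => 1 / (2 * Real.sqrt (F x)) * d i :=
  hF.comp (Real.hasDerivAt_sqrt h)

lemma HD.sum {ι : Type*} [Fintype ι] {f : ι → E3 → ℝ} {df : ι → Fin 3 → ℝ}
    (h : ∀ k, HD (f k) x (df k)) : HD (fun y => ∑ k, f k y) x fun i => ∑ k, df k i := by
  refine ⟨(DifferentiableAt.fun_sum fun k _ => (h k).1), fun i => ?_⟩
  simp only [pd]
  rw [fderiv_fun_sum fun k _ => (h k).1]
  simp only [ContinuousLinearMap.coe_sum', Finset.sum_apply]
  exact Finset.sum_congr rfl fun k _ => (h k).2 i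

lemma HD.coord (j : Fin 3) : HD (fun y : E3 => y j) x fun i => if i = j then 1 else 0 := by
  have h : HasFDerivAt (fun y : E3 => y j) (EuclideanSpace.proj (𝕜 := ℝ) j) x :=
    (EuclideanSpace.proj (𝕜 := ℝ) j).hasFDerivAt
  refine ⟨h.differentiableAt, fun i => ?_⟩
  simp only [pd, h.fderiv]
  simp [EuclideanSpace.proj, eq_comm]

lemma contDiff_pd {n : ℕ} {u : E3 → ℝ} (hu : ContDiff ℝ (n + 1) u) (i : Fin 3) :
    ContDiff ℝ n (pd i u) := (hu.fderiv_right le_rfl).clm_apply contDiff_const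

variable {u : E3 → ℝ}

lemma contDiff_pd2 (hu : ContDiff ℝ 3 u) (i j : Fin 3) : ContDiff ℝ 1 (pd2 i j u) :=
  contDiff_pd (n := 1) (contDiff_pd (n := 2) hu j) i

lemma pd_comm {f : E3 → ℝ} (hf : ContDiff ℝ 2 f) (i j : Fin 3) (x : E3) :
    pd i (pd j f) x = pd j (pd i f) x := by
  have hd : DifferentiableAt ℝ (fderiv ℝ f) x :=
    (hf.fderiv_right (m := 1) le_rfl).differentiable one_ne_zero x
  have h : ∀ a b : Fin 3, pd a (pd b f) x =
      fderiv ℝ (fderiv ℝ f) x (EuclideanSpace.single a 1) (EuclideanSpace.single b 1) := by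
    intro a b
    show fderiv ℝ (fun y => fderiv ℝ f y (EuclideanSpace.single b 1)) x _ = _
    rw [fderiv_clm_apply hd (differentiableAt_const _)]
    simp
  rw [h i j, h j i]
  exact (hf.contDiffAt.isSymmSndFDerivAt (by simp [minSmoothness_of_isRCLikeNormedField])) _ _

lemma pd2_comm (hu : ContDiff ℝ 3 u) (i j : Fin 3) (x : E3) : pd2 i j u x = pd2 j i u x :=
  pd_comm (hu.of_le (by norm_num)) i j x

/-- third derivatives -/
noncomputable def T3 (k i j : Fin 3) (u : E3 → ℝ) (x : E3) : ℝ := pd k (pd2 i j u) x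

lemma T3_comm_right (hu : ContDiff ℝ 3 u) (k i j : Fin 3) (x : E3) :
    T3 k i j u x = T3 k j i u x := by
  simp only [T3, show pd2 i j u = pd2 j i u from funext (pd2_comm hu i j)]

lemma T3_comm_left (hu : ContDiff ℝ 3 u) (k i j : Fin 3) (x : E3) :
    T3 k i j u x = T3 i k j u x := pd_comm (contDiff_pd (n := 2) hu j) k i x

/-- the integral of a divergence of a compactly supported field vanishes -/
lemma integral_pd_eq_zero {f : E3 → ℝ} (hf : ContDiff ℝ 1 f) (hc : HasCompactSupport f) (i : Fin 3) :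
    ∫ x, pd i f x = 0 := by
  have hdf : Continuous (pd i f) := (hf.continuous_fderiv one_ne_zero).clm_apply continuous_const
  have hint : Integrable (pd i f) :=
    hdf.integrable_of_hasCompactSupport ((hc.fderiv_apply ℝ (EuclideanSpace.single i 1)))
  have h := integral_mul_fderiv_eq_neg_fderiv_mul_of_integrable (μ := (volume : Measure E3))
    (f := f) (g := fun _ => (1 : ℝ)) (v := EuclideanSpace.single i 1)
    (by simp only [mul_one]; exact hint)
    (by simp)
    (by simpa using hf.continuous.integrable_of_hasCompactSupport hc)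
    (fun x _ => hf.differentiable one_ne_zero x) (fun x _ => differentiableAt_const _)
  simpa [pd] using h

lemma qv_eq (hu : ContDiff ℝ 3 u) (x : E3) :
    HD (gsq u) x fun i => 2 * qv i u x := by
  have h : ∀ j, HD (fun y => pd j u y * pd j u y) x
      (fun i => pd2 i j u x * pd j u x + pd j u x * pd2 i j u x) := fun j =>
    (HD.self ((contDiff_pd (n := 2) hu j).differentiable (by norm_num) x)).mul
      (HD.self ((contDiff_pd (n := 2) hu j).differentiable (by norm_num) x))
  have e : gsq u = fun y => ∑ j, pd j u y * pd j u y := by funext y; simp [gsq, sq]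
  rw [e]
  refine (HD.sum h).congr fun i => ?_
  simp only [qv, Finset.mul_sum]
  exact Finset.sum_congr rfl fun j _ => by ring

end Vale.Agent.P080.C1.Energy
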