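import Vale.Agent.P080.C1.Energy.Identity

/-!
# The localised identity
-/

namespace Vale.Agent.P080.C1.Energy

open scoped ContDiff Topology
open Set Filter MeasureTheory Vale.Agent.P080

variable {u φ : E3 → ℝ} {x : E3}

/-- the field whose divergence gives the localised identity -/
noncomputable def Xi (φ u : E3 → ℝ) (j : Fin 3) (x : E3) : ℝ :=
  φ x * (VV j u x - N2 j u x) - (∑ i, pd i φ x * hh i u x) * pd j u x - pd j φ x * MM u x

noncomputable def kap (u : E3 → ℝ) (x : E3) : ℝ :=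
  2 * LL u x / rr u x + 2 * GG u x - 1

noncomputable def latB (i : Fin 3) (u : E3 → ℝ) (x : E3) : ℝ :=
  (kap u x - 2 * ha u x) * qv i u x
    + pd i u x * (2 * GG u x / rr u x + 2 * GG u x ^ 2) * qv 2 u x
    - pd i u x * (1 / rr u x ^ 3 - 2 * GG u x ^ 2 / rr u x) * AA u x

noncomputable def verB (u : E3 → ℝ) (x : E3) : ℝ :=
  (kap u x - ha u x) * qv 2 u x
    - 2 * GG u x / rr u x * (pd 0 u x * qv 0 u x + pd 1 u x * qv 1 u x)
    - (pd 2 u x * AA u x - rr u x ^ 2 * qv 2 u x) / rr u x ^ 3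

noncomputable def R1 (φ u : E3 → ℝ) (x : E3) : ℝ :=
  pd 0 φ x * latB 0 u x + pd 1 φ x * latB 1 u x + pd 2 φ x * verB u x
    - (∑ i, ∑ j, pd2 j i φ x * hh i u x * pd j u x) - (∑ j, pd2 j j φ x) * MM u x

theorem div_Xi (hu : ContDiff ℝ 3 u) (hφ : ContDiff ℝ 2 φ) (h : 0 < rr u x + pd 2 u x) :
    ∑ j, pd j (Xi φ u j) x =
      φ x * (trH u x * AA u x - BB u x) / rr u x ^ 3 + R1 φ u x := by
  have hr := rr_pos h
  have hV : ∀ j, HD (VV j u) x fun i => pd i (VV j u) x := fun j => HD.self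
    ((((hd_ha hu h).mul (HD.self (hd_N1 hu j).1)).add
      (((HD.const 2).mul ((hd_rr hu h).mul (hd_GG hu h))).mul (HD.self (hd_N2 hu j).1))).add
      (((HD.const 2).mul ((hd_GG hu h).mul ((hd_rr hu h).inv hr.ne'))).mul
        (HD.self (hd_N3 hu j).1))).1
  have hN : ∀ j, HD (N2 j u) x fun i => pd i (N2 j u) x := fun j => HD.self (hd_N2 hu j).1
  have hp : ∀ i, HD (pd i φ) x fun j => pd2 j i φ x := fun i =>
    HD.self ((contDiff_pd (n := 1) hφ i).differentiable one_ne_zero x)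
  have hh0 : ∀ i : Fin 3, i ≠ 2 → HD (hh i u) x fun j =>
      (-2 * GG u x ^ 2 * (qv j u x / rr u x + pd2 j 2 u x) + qv j u x / rr u x ^ 3) * pd i u x
        + ha u x * pd2 j i u x := by
    intro i hi
    have e : hh i u = fun y => ha u y * pd i u y := by funext y; simp [hh, hi]
    rw [e]
    exact (hd_ha hu h).mul (hd_pd hu i)
  have hh2 : HD (hh 2 u) x fun j =>
      -(pd2 j 2 u x) / rr u x + pd 2 u x * qv j u x / rr u x ^ 3 := by
    have e : hh 2 u = hk u := by funext y; simp [hh]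
    rw [e]; exact hd_hk hu h
  have hhd : ∀ i, DifferentiableAt ℝ (hh i u) x := fun i => by
    rcases eq_or_ne i 2 with rfl | hi
    exacts [hh2.1, (hh0 i hi).1]
  have hd : ∀ j, HD (Xi φ u j) x _ := fun j =>
    (((HD.self (hφ.differentiable two_ne_zero x)).mul ((hV j).sub (hN j))).sub
      ((HD.sum fun i => (hp i).mul (HD.self (hhd i))).mul (hd_pd hu j))).sub
      ((hp j).mul (hd_MM hu h))
  have e1 := div_VV hu h
  have e2 := div_N2 (x := x) hu
  simp only [Fin.sum_univ_three] at e1 e2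
  simp only [(hd _).2, Fin.sum_univ_three, (hh0 0 (by decide)).2, (hh0 1 (by decide)).2, hh2.2]
  rw [show φ x * (trH u x * AA u x - BB u x) / rr u x ^ 3 =
      φ x * ((pd 0 (VV 0 u) x + pd 1 (VV 1 u) x + pd 2 (VV 2 u) x) -
        (pd 0 (N2 0 u) x + pd 1 (N2 1 u) x + pd 2 (N2 2 u) x)) by
    rw [e1, e2, sub_zero, mul_div_assoc]]
  simp only [R1, latB, verB, kap, hh, VV, N1, N2, N3, hk, ha, GG, AA, qv, trH, dl,
    Fin.sum_univ_three, Fin.reduceEq, if_false, if_true]
  simp only [pd2_comm hu 1 0, pd2_comm hu 2 0, pd2_comm hu 2 1]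
  field_simp
  ring

end Vale.Agent.P080.C1.Energy
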