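import Vale.Agent.P080.C1.Energy.Calc

/-!
# The null-Lagrangian identity behind the energy estimate

For a smooth function with gradient `p`, Hessian `H`, `q = Hp`, `r = |p|` and `r + p₂ > 0` the
field `VV` below satisfies `div VV = (tr H ⟨p,q⟩ - |q|²)/r³`; it coincides with the null field
`tr H e - H e` at `p = e`.
-/

namespace Vale.Agent.P080.C1.Energy

open scoped ContDiff Topology
open Set Filter MeasureTheory Vale.Agent.P080

variable {u : E3 → ℝ} {x : E3}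

noncomputable def rr (u : E3 → ℝ) (x : E3) : ℝ := Real.sqrt (gsq u x)
noncomputable def GG (u : E3 → ℝ) (x : E3) : ℝ := (rr u x + pd 2 u x)⁻¹
/-- `⟨p, q⟩` -/
noncomputable def AA (u : E3 → ℝ) (x : E3) : ℝ := ∑ i, qv i u x * pd i u x
/-- `|q|²` -/
noncomputable def BB (u : E3 → ℝ) (x : E3) : ℝ := ∑ i, qv i u x * qv i u x
noncomputable def ha (u : E3 → ℝ) (x : E3) : ℝ := 2 * GG u x - (rr u x)⁻¹
noncomputable def hk (u : E3 → ℝ) (x : E3) : ℝ := 1 - pd 2 u x * (rr u x)⁻¹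
noncomputable def LL (u : E3 → ℝ) (x : E3) : ℝ := Real.log ((rr u x + pd 2 u x) * (1 / 2))
noncomputable def MM (u : E3 → ℝ) (x : E3) : ℝ :=
  pd 2 u x - 2 * (rr u x * LL u x) + (gsq u x - 1) * (1 / 2) - 1
def dl (i : Fin 3) : ℝ := if i = 2 then 1 else 0
noncomputable def N1 (i : Fin 3) (u : E3 → ℝ) (x : E3) : ℝ := trH u x * pd i u x - qv i u x
noncomputable def N2 (i : Fin 3) (u : E3 → ℝ) (x : E3) : ℝ := dl i * trH u x - pd2 i 2 u x
noncomputable def N3 (i : Fin 3) (u : E3 → ℝ) (x : E3) : ℝ :=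
  pd i u x * qv 2 u x - dl i * AA u x
noncomputable def VV (i : Fin 3) (u : E3 → ℝ) (x : E3) : ℝ :=
  ha u x * N1 i u x + 2 * (rr u x * GG u x) * N2 i u x + 2 * (GG u x * (rr u x)⁻¹) * N3 i u x
noncomputable def hh (i : Fin 3) (u : E3 → ℝ) (x : E3) : ℝ :=
  if i = 2 then hk u x else ha u x * pd i u x

lemma hd_pd (hu : ContDiff ℝ 3 u) (j : Fin 3) : HD (pd j u) x fun i => pd2 i j u x :=
  HD.self ((contDiff_pd (n := 2) hu j).differentiable (by norm_num) x)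

lemma hd_pd2 (hu : ContDiff ℝ 3 u) (i j : Fin 3) : HD (pd2 i j u) x fun k => T3 k i j u x :=
  HD.self ((contDiff_pd2 hu i j).differentiable one_ne_zero x)

lemma gsq_eq (u : E3 → ℝ) (x : E3) :
    gsq u x = pd 0 u x ^ 2 + pd 1 u x ^ 2 + pd 2 u x ^ 2 := by
  simp [gsq, Fin.sum_univ_three]

lemma rr_pos (h : 0 < rr u x + pd 2 u x) : 0 < rr u x := by
  have h1 : |pd 2 u x| ≤ rr u x := by
    rw [rr, ← Real.sqrt_sq_eq_abs]
    exact Real.sqrt_le_sqrt (by rw [gsq_eq]; nlinarith)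
  linarith [le_abs_self (pd 2 u x)]

lemma rr_sq (u : E3 → ℝ) (x : E3) : rr u x ^ 2 = gsq u x :=
  Real.sq_sqrt (by rw [gsq_eq]; positivity)

lemma hd_rr (hu : ContDiff ℝ 3 u) (h : 0 < rr u x + pd 2 u x) :
    HD (rr u) x fun i => qv i u x / rr u x := by
  have hr := rr_pos h
  refine ((qv_eq hu x).sqrt (by rw [← rr_sq]; positivity)).congr fun i => ?_
  rw [← rr]; field_simp

lemma hd_GG (hu : ContDiff ℝ 3 u) (h : 0 < rr u x + pd 2 u x) :
    HD (GG u) x fun i => -GG u x ^ 2 * (qv i u x / rr u x + pd2 i 2 u x) := by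
  refine (((hd_rr hu h).add (hd_pd hu 2)).inv h.ne').congr fun i => ?_
  simp only [GG, inv_pow]

lemma hd_trH (hu : ContDiff ℝ 3 u) : HD (trH u) x fun k => ∑ i, T3 k i i u x :=
  HD.sum (f := fun i => pd2 i i u) fun i => hd_pd2 hu i i

lemma hd_qv (hu : ContDiff ℝ 3 u) (i : Fin 3) :
    HD (qv i u) x fun k => ∑ j, (T3 k i j u x * pd j u x + pd2 i j u x * pd2 k j u x) :=
  HD.sum (f := fun j y => pd2 i j u y * pd j u y) fun j => (hd_pd2 hu i j).mul (hd_pd hu j)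

lemma hd_AA (hu : ContDiff ℝ 3 u) : HD (AA u) x fun k => ∑ i,
    ((∑ j, (T3 k i j u x * pd j u x + pd2 i j u x * pd2 k j u x)) * pd i u x +
      qv i u x * pd2 k i u x) :=
  HD.sum (f := fun i y => qv i u y * pd i u y) fun i => (hd_qv hu i).mul (hd_pd hu i)

lemma hd_ha (hu : ContDiff ℝ 3 u) (h : 0 < rr u x + pd 2 u x) :
    HD (ha u) x fun i => -2 * GG u x ^ 2 * (qv i u x / rr u x + pd2 i 2 u x) +
      qv i u x / rr u x ^ 3 := by
  have hr := rr_pos h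
  refine (((HD.const 2).mul (hd_GG hu h)).sub ((hd_rr hu h).inv hr.ne')).congr fun i => ?_
  field_simp
  ring

lemma hd_hk (hu : ContDiff ℝ 3 u) (h : 0 < rr u x + pd 2 u x) :
    HD (hk u) x fun i => -(pd2 i 2 u x) / rr u x + pd 2 u x * qv i u x / rr u x ^ 3 := by
  have hr := rr_pos h
  refine ((HD.const 1).sub ((hd_pd hu 2).mul ((hd_rr hu h).inv hr.ne'))).congr fun i => ?_
  field_simp
  ring

lemma hd_MM (hu : ContDiff ℝ 3 u) (h : 0 < rr u x + pd 2 u x) :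
    HD (MM u) x fun i => pd2 i 2 u x - 2 * LL u x * qv i u x / rr u x
      - 2 * rr u x * GG u x * (qv i u x / rr u x + pd2 i 2 u x) + qv i u x := by
  have hr := rr_pos h
  have hL : HD (LL u) x fun i => GG u x * (qv i u x / rr u x + pd2 i 2 u x) := by
    refine ((((hd_rr hu h).add (hd_pd hu 2)).mul (HD.const (1/2))).log (by positivity)).congr
      fun i => ?_
    simp only [GG]; field_simp; ring
  refine ((((hd_pd hu 2).sub ((HD.const 2).mul ((hd_rr hu h).mul hL))).add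
    (((qv_eq hu x).sub (HD.const 1)).mul (HD.const (1/2)))).sub (HD.const 1)).congr fun i => ?_
  field_simp
  ring

lemma hd_N1 (hu : ContDiff ℝ 3 u) (i : Fin 3) : HD (N1 i u) x fun k =>
    (∑ j, T3 k j j u x) * pd i u x + trH u x * pd2 k i u x -
      ∑ j, (T3 k i j u x * pd j u x + pd2 i j u x * pd2 k j u x) :=
  ((hd_trH hu).mul (hd_pd hu i)).sub (hd_qv hu i)

lemma hd_N2 (hu : ContDiff ℝ 3 u) (i : Fin 3) : HD (N2 i u) x fun k =>
    (0 * trH u x + dl i * ∑ j, T3 k j j u x) - T3 k i 2 u x :=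
  ((HD.const _).mul (hd_trH hu)).sub (hd_pd2 hu i 2)

lemma hd_N3 (hu : ContDiff ℝ 3 u) (i : Fin 3) : HD (N3 i u) x fun k =>
    (pd2 k i u x * qv 2 u x + pd i u x *
      ∑ j, (T3 k 2 j u x * pd j u x + pd2 2 j u x * pd2 k j u x)) -
    (0 * AA u x + dl i * ∑ l,
      ((∑ j, (T3 k l j u x * pd j u x + pd2 l j u x * pd2 k j u x)) * pd l u x +
        qv l u x * pd2 k l u x)) :=
  ((hd_pd hu i).mul (hd_qv hu 2)).sub ((HD.const _).mul (hd_AA hu))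

lemma T3_syms (hu : ContDiff ℝ 3 u) :
    (T3 1 0 0 u x = T3 0 0 1 u x ∧ T3 1 0 1 u x = T3 0 1 1 u x ∧ T3 1 0 2 u x = T3 0 1 2 u x) ∧
    (T3 2 0 0 u x = T3 0 0 2 u x ∧ T3 2 0 1 u x = T3 0 1 2 u x ∧ T3 2 0 2 u x = T3 0 2 2 u x) ∧
    (T3 2 1 1 u x = T3 1 1 2 u x ∧ T3 2 1 2 u x = T3 1 2 2 u x ∧
      T3 2 1 0 u x = T3 0 1 2 u x ∧ T3 1 2 0 u x = T3 0 1 2 u x) ∧
    (∀ k, T3 k 1 0 u x = T3 k 0 1 u x ∧ T3 k 2 0 u x = T3 k 0 2 u x ∧
      T3 k 2 1 u x = T3 k 1 2 u x) := by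
  have r := fun k i j => T3_comm_right hu k i j x
  have l := fun k i j => T3_comm_left hu k i j x
  refine ⟨⟨?_, ?_, ?_⟩, ⟨?_, ?_, ?_⟩, ⟨?_, ?_, ?_, ?_⟩, fun k => ⟨r _ _ _, r _ _ _, r _ _ _⟩⟩
  · rw [l, r]
  · rw [l]
  · rw [l]
  · rw [l, r]
  · rw [l, r]
  · rw [l]
  · rw [l, r]
  · rw [l]
  · rw [r, l, r]
  · rw [r, l]

lemma div_N1 (hu : ContDiff ℝ 3 u) :
    ∑ i, pd i (N1 i u) x = trH u x ^ 2 - hessSq u x := by
  obtain ⟨⟨a1, a2, a3⟩, ⟨b1, b2, b3⟩, ⟨c1, c2, c3, c4⟩, d⟩ := T3_syms (x := x) hu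
  simp only [(hd_N1 hu _).2, trH, hessSq, Fin.sum_univ_three, d 0, d 1, d 2,
    a1, a2, a3, b1, b2, b3, c1, c2, c3, c4]
  simp only [pd2_comm hu 1 0, pd2_comm hu 2 0, pd2_comm hu 2 1]
  ring

lemma div_N2 (hu : ContDiff ℝ 3 u) : ∑ i, pd i (N2 i u) x = 0 := by
  obtain ⟨⟨a1, a2, a3⟩, ⟨b1, b2, b3⟩, ⟨c1, c2, c3, c4⟩, d⟩ := T3_syms (x := x) hu
  simp only [(hd_N2 hu _).2, Fin.sum_univ_three, dl, d 0, d 1, d 2,
    a1, a2, a3, b1, b2, b3, c1, c2, c3, c4]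
  simp; ring

lemma div_N3 (hu : ContDiff ℝ 3 u) :
    ∑ i, pd i (N3 i u) x = trH u x * qv 2 u x - ∑ i, qv i u x * pd2 i 2 u x := by
  obtain ⟨⟨a1, a2, a3⟩, ⟨b1, b2, b3⟩, ⟨c1, c2, c3, c4⟩, d⟩ := T3_syms (x := x) hu
  simp only [(hd_N3 hu _).2, trH, qv, Fin.sum_univ_three, dl, d 0, d 1, d 2,
    a1, a2, a3, b1, b2, b3, c1, c2, c3, c4]
  simp only [pd2_comm hu 1 0, pd2_comm hu 2 0, pd2_comm hu 2 1, Fin.reduceEq, if_false, if_true]
  ring

theorem div_VV (hu : ContDiff ℝ 3 u) (h : 0 < rr u x + pd 2 u x) :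
    ∑ i, pd i (VV i u) x = (trH u x * AA u x - BB u x) / rr u x ^ 3 := by
  have hr := rr_pos h
  have hd : ∀ i, HD (VV i u) x _ := fun i =>
    ((((hd_ha hu h).mul (HD.self (hd_N1 hu i).1)).add
      (((HD.const 2).mul ((hd_rr hu h).mul (hd_GG hu h))).mul (HD.self (hd_N2 hu i).1))).add
      (((HD.const 2).mul ((hd_GG hu h).mul ((hd_rr hu h).inv hr.ne'))).mul (HD.self (hd_N3 hu i).1)))
  have e1 := div_N1 (x := x) hu
  have e2 := div_N2 (x := x) hu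
  have e3 := div_N3 (x := x) hu
  set C := ∑ i, qv i u x * pd2 i 2 u x with hC
  set X := trH u x * qv 2 u x - C with hX
  set N := ∑ i, pd2 i 2 u x * pd2 i 2 u x with hN
  have key : BB u x - trH u x * AA u x + 2 * pd 2 u x * X
      - rr u x ^ 2 * (trH u x * pd2 2 2 u x - N) - qv 2 u x ^ 2 + pd2 2 2 u x * AA u x =
      (trH u x ^ 2 - hessSq u x) / 2 * (pd 2 u x ^ 2 - rr u x ^ 2) := by
    simp only [hX, hC, hN, rr_sq, BB, AA, qv, trH, hessSq, gsq, Fin.sum_univ_three]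
    simp only [pd2_comm hu 1 0, pd2_comm hu 2 0, pd2_comm hu 2 1]
    ring
  have main : ∑ i, pd i (VV i u) x =
      ha u x * (∑ i, pd i (N1 i u) x) + 2 * (rr u x * GG u x) * (∑ i, pd i (N2 i u) x) +
      2 * (GG u x * (rr u x)⁻¹) * (∑ i, pd i (N3 i u) x) +
      ((-2 * GG u x ^ 2 / rr u x + 1 / rr u x ^ 3) * (trH u x * AA u x - BB u x)
        - 2 * GG u x ^ 2 * X) +
      2 * ((GG u x / rr u x - GG u x ^ 2) * X
        - rr u x * GG u x ^ 2 * (trH u x * pd2 2 2 u x - N)) +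
      2 * (-GG u x ^ 2 / rr u x * (qv 2 u x ^ 2 - pd2 2 2 u x * AA u x)) := by
    simp only [(hd _).2, hX, hC, hN, N1, N2, N3, BB, AA, dl, Fin.sum_univ_three, Fin.reduceEq,
      if_false, if_true]
    simp only [qv, Fin.sum_univ_three]
    simp only [pd2_comm hu 1 0, pd2_comm hu 2 0, pd2_comm hu 2 1]
    field_simp
    ring
  rw [main, e1, e2, e3]
  have fin : ha u x * (trH u x ^ 2 - hessSq u x) + 2 * (GG u x * (rr u x)⁻¹) * X +
      ((-2 * GG u x ^ 2 / rr u x + 1 / rr u x ^ 3) * (trH u x * AA u x - BB u x)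
        - 2 * GG u x ^ 2 * X) +
      2 * ((GG u x / rr u x - GG u x ^ 2) * X
        - rr u x * GG u x ^ 2 * (trH u x * pd2 2 2 u x - N)) +
      2 * (-GG u x ^ 2 / rr u x * (qv 2 u x ^ 2 - pd2 2 2 u x * AA u x)) -
      (trH u x * AA u x - BB u x) / rr u x ^ 3 =
      2 * GG u x ^ 2 / rr u x * ((BB u x - trH u x * AA u x + 2 * pd 2 u x * X
        - rr u x ^ 2 * (trH u x * pd2 2 2 u x - N) - qv 2 u x ^ 2 + pd2 2 2 u x * AA u x) -
        (trH u x ^ 2 - hessSq u x) / 2 * (pd 2 u x ^ 2 - rr u x ^ 2)) := by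
    simp only [ha, GG]
    field_simp
    ring
  rw [key, sub_self, mul_zero] at fin
  linarith

end Vale.Agent.P080.C1.Energy
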