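import Vale.Agent.P080.C1.Energy.Flux

/-!
# Pointwise bounds for the terms of the localised identity
-/

namespace Vale.Agent.P080.C1.Energy

open scoped ContDiff Topology
open Set Filter MeasureTheory Vale.Agent.P080

variable {u : E3 → ℝ} {x : E3} {lam ε : ℝ}

/-- first order quantity -/
noncomputable def SS (lam : ℝ) (u : E3 → ℝ) (x : E3) : ℝ :=
  |gsq u x - 1| + pLatSq u x + |1 - pd 2 u x| + lam

lemma res_eq (ε : ℝ) (u : E3 → ℝ) (x : E3) : res ε u x = ε * trH u x + AA u x := by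
  simp only [res, infLap, AA, qv, pd2, Fin.sum_univ_three]
  ring

lemma pd_near (hx : ‖grad u x - e3‖ ≤ 1/4) :
    |pd 0 u x| ≤ 1/4 ∧ |pd 1 u x| ≤ 1/4 ∧ |1 - pd 2 u x| ≤ 1/4 := by
  have h : ‖grad u x - e3‖ ^ 2 = pd 0 u x ^ 2 + pd 1 u x ^ 2 + (pd 2 u x - 1) ^ 2 := by
    rw [EuclideanSpace.real_norm_sq_eq]
    simp [Fin.sum_univ_three, grad, e3]
  have h2 : ‖grad u x - e3‖ ^ 2 ≤ (1/4) ^ 2 := pow_le_pow_left₀ (norm_nonneg _) hx 2
  refine ⟨abs_le_of_sq_le_sq ?_ (by norm_num), abs_le_of_sq_le_sq ?_ (by norm_num),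
    abs_le_of_sq_le_sq ?_ (by norm_num)⟩
  all_goals nlinarith [sq_nonneg (pd 0 u x), sq_nonneg (pd 1 u x), sq_nonneg (pd 2 u x - 1)]

structure Reg (lam : ℝ) (u : E3 → ℝ) (x : E3) : Prop where
  r_lo : 3/4 ≤ rr u x
  r_hi : rr u x ≤ 3/2
  p_lo : 3/4 ≤ pd 2 u x
  p_hi : pd 2 u x ≤ 5/4
  lam_le : lam ≤ SS lam u x
  S_le : SS lam u x ≤ 3
  lat : ∀ i : Fin 3, i ≠ 2 → |pd i u x| ≤ Real.sqrt (SS lam u x)
  ha_le : |ha u x| ≤ SS lam u x
  hk_le : |hk u x| ≤ SS lam u x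
  kap_le : |kap u x| ≤ 4 * SS lam u x
  MM_le : |MM u x| ≤ 4 * SS lam u x ^ 2
  GG_nonneg : 0 ≤ GG u x
  GG_le : GG u x ≤ 2/3

lemma log_bounds {z : ℝ} (hz : 0 < z) : Real.log z ≤ z - 1 ∧ (z - 1) / z ≤ Real.log z := by
  refine ⟨Real.log_le_sub_one_of_pos hz, ?_⟩
  have := Real.log_le_sub_one_of_pos (inv_pos.2 hz)
  rw [Real.log_inv] at this
  have e : (z - 1) / z = 1 - z⁻¹ := by field_simp
  linarith

/-- scalar form of the basic estimates -/
lemma reg_scalar {r p X a S lam : ℝ} (hp : 3/4 ≤ p) (hp1 : p ≤ 5/4) (hr0 : 0 ≤ r)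
    (hX : 0 ≤ X) (hX8 : X ≤ 1/8) (hr2 : r ^ 2 = X + p ^ 2) (ha : a = r ^ 2 - 1)
    (hlam : 0 < lam) (hlam1 : lam ≤ 1) (hS : S = |a| + X + |1 - p| + lam) :
    (3/4 ≤ r ∧ r ≤ 3/2 ∧ lam ≤ S ∧ S ≤ 3 ∧ |r - 1| ≤ S) ∧
    (0 ≤ r - p ∧ r - p ≤ 2/3 * X ∧ |(r + p) * (1/2) - 1| ≤ S / 2 ∧ |2 - r - p| ≤ S) := by
  have hrp : p ≤ r := by nlinarith only [hr2, hX, hp, hr0]
  have hrhi : r ≤ 3/2 := by nlinarith only [hr2, hX8, hp, hp1, hr0]
  have ha0 := abs_nonneg a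
  have hb0 := abs_nonneg (1 - p)
  have hrm : |r - 1| ≤ |a| := by
    rw [ha, show r ^ 2 - 1 = (r - 1) * (r + 1) by ring, abs_mul]
    refine le_mul_of_one_le_right (abs_nonneg _) ?_
    rw [abs_of_pos (by linarith only [hp, hrp])]
    linarith only [hp, hrp]
  have hsum : |r - 1| + |1 - p| ≤ S := by linarith only [hS, hrm, hX, hlam]
  have hdiff : r - p ≤ 2/3 * X := by nlinarith only [hr2, hrp, hp]
  have ha1 : |a| ≤ 3/2 := by
    rw [abs_le, ha]
    constructor <;> nlinarith only [hrhi, hr0, hrp, hp]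
  have hb1 : |1 - p| ≤ 1/4 := abs_le.2 ⟨by linarith only [hp1], by linarith only [hp]⟩
  refine ⟨⟨by linarith only [hp, hrp], hrhi, by linarith only [hS, hX, ha0, hb0],
    by linarith only [hS, ha1, hb1, hX8, hlam1], by linarith only [hsum, hb0]⟩,
    by linarith only [hrp], hdiff, ?_, ?_⟩
  all_goals
    rw [abs_le]
    constructor <;>
      linarith only [hsum, le_abs_self (r - 1), neg_abs_le (r - 1), le_abs_self (1 - p),
        neg_abs_le (1 - p), abs_nonneg (r - 1), hb0]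

lemma log_est {z S : ℝ} (hz : 3/4 ≤ z) (hz1 : |z - 1| ≤ S / 2) :
    |Real.log z| ≤ S ∧ 0 ≤ z - 1 - Real.log z ∧ z - 1 - Real.log z ≤ S ^ 2 / 3 := by
  have hz0 : 0 < z := by linarith
  obtain ⟨hu, hl⟩ := log_bounds hz0
  have hdivz : |(z - 1) / z| ≤ 4/3 * |z - 1| := by
    rw [abs_div, abs_of_pos hz0, div_le_iff₀ hz0]
    nlinarith [abs_nonneg (z-1)]
  refine ⟨abs_le.2 ⟨?_, ?_⟩, by linarith, ?_⟩
  · linarith [neg_abs_le ((z-1)/z), abs_nonneg (z-1)]
  · linarith [le_abs_self (z-1), abs_nonneg (z-1)]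
  · have e : z - 1 - (z - 1) / z = (z - 1) ^ 2 / z := by field_simp
    have h4 : (z - 1) ^ 2 / z ≤ 4/3 * (z - 1) ^ 2 := by
      rw [div_le_iff₀ hz0]; nlinarith [sq_nonneg (z-1)]
    have hzz : (z - 1) ^ 2 ≤ (S / 2) ^ 2 := by rw [← sq_abs]; gcongr
    nlinarith [sq_nonneg S]

lemma reg (hlam : 0 < lam) (hlam1 : lam ≤ 1) (hx : ‖grad u x - e3‖ ≤ 1/4) : Reg lam u x := by
  obtain ⟨h0, h1, h2⟩ := pd_near hx
  rw [abs_le] at h2
  have hl0 : pd 0 u x ^ 2 ≤ (1/4) ^ 2 := by rw [← sq_abs]; gcongr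
  have hl1 : pd 1 u x ^ 2 ≤ (1/4) ^ 2 := by rw [← sq_abs]; gcongr
  have hXe : pLatSq u x = pd 0 u x ^ 2 + pd 1 u x ^ 2 := rfl
  have hX : 0 ≤ pLatSq u x := by rw [hXe]; positivity
  have hr2 : rr u x ^ 2 = pLatSq u x + pd 2 u x ^ 2 := by rw [rr_sq, gsq_eq, hXe]
  obtain ⟨⟨hrlo, hrhi, hls, hS3, hrm⟩, hrp, hdiff, hz1, h2rp⟩ := reg_scalar
    (r := rr u x) (p := pd 2 u x) (by linarith [h2.2]) (by linarith [h2.1]) (Real.sqrt_nonneg _) hX
    (by rw [hXe]; linarith) hr2 (a := gsq u x - 1) (by rw [rr_sq]) hlam hlam1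
    (S := SS lam u x) rfl
  have hr : 0 < rr u x := by linarith
  have hp : 3/4 ≤ pd 2 u x := by linarith [h2.2]
  have hGr : GG u x * (rr u x + pd 2 u x) = 1 := inv_mul_cancel₀ (by linarith)
  have hG0 : 0 ≤ GG u x := inv_nonneg.2 (by linarith)
  have hG1 : GG u x ≤ 2/3 := by
    have := mul_le_mul_of_nonneg_left (show (3:ℝ)/2 ≤ rr u x + pd 2 u x by linarith) hG0
    linarith
  have hri2 : (rr u x)⁻¹ ≤ 4/3 := by
    rw [inv_le_comm₀ hr (by norm_num)]; norm_num; linarith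
  obtain ⟨hL, hd0, hd1⟩ := log_est (z := (rr u x + pd 2 u x) * (1/2)) (by linarith) hz1
  have hS0 : 0 ≤ SS lam u x := by linarith
  have hXS : pLatSq u x ≤ SS lam u x := by
    simp only [SS]; linarith [abs_nonneg (gsq u x - 1), abs_nonneg (1 - pd 2 u x)]
  refine ⟨hrlo, hrhi, hp, by linarith [h2.1], hls, hS3, ?_, ?_, ?_, ?_, ?_, hG0, hG1⟩
  · intro i hi
    rw [← Real.sqrt_sq_eq_abs]
    refine Real.sqrt_le_sqrt (le_trans ?_ hXS)
    rw [hXe]
    fin_cases i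
    · exact le_add_of_nonneg_right (sq_nonneg _)
    · exact le_add_of_nonneg_left (sq_nonneg _)
    · exact absurd rfl hi
  · have e : ha u x = (rr u x - pd 2 u x) * GG u x * (rr u x)⁻¹ := by
      simp only [ha]; field_simp; linear_combination hGr
    rw [e, abs_of_nonneg (by positivity)]
    calc _ ≤ (2/3 * pLatSq u x) * (2/3) * (4/3) := by gcongr
      _ ≤ _ := by linarith
  · have e : hk u x = (rr u x - pd 2 u x) * (rr u x)⁻¹ := by
      simp only [hk]; field_simp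
    rw [e, abs_of_nonneg (by positivity)]
    calc _ ≤ (2/3 * pLatSq u x) * (4/3) := by gcongr
      _ ≤ _ := by linarith
  · have e : kap u x = 2 * LL u x * (rr u x)⁻¹ + GG u x * (2 - rr u x - pd 2 u x) := by
      simp only [kap, div_eq_mul_inv]; linear_combination hGr
    have a1 : |2 * LL u x * (rr u x)⁻¹| ≤ 2 * SS lam u x * (4/3) := by
      rw [abs_mul, abs_mul, abs_two, abs_of_pos (inv_pos.2 hr)]; gcongr; exact hL
    have a2 : |GG u x * (2 - rr u x - pd 2 u x)| ≤ 2/3 * SS lam u x := by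
      rw [abs_mul, abs_of_nonneg hG0]; gcongr
    rw [e]
    linarith [abs_add_le (2 * LL u x * (rr u x)⁻¹) (GG u x * (2 - rr u x - pd 2 u x))]
  · have e : MM u x = 2 * ((rr u x + pd 2 u x) * (1/2) - 1 - LL u x)
        + (rr u x - 1) ^ 2 / 2 - 2 * (rr u x - 1) * LL u x := by
      simp only [MM, ← rr_sq]; ring
    have hrr : (rr u x - 1) ^ 2 ≤ SS lam u x ^ 2 := by rw [← sq_abs]; gcongr
    have hrl : |2 * (rr u x - 1) * LL u x| ≤ 2 * SS lam u x * SS lam u x := by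
      rw [abs_mul, abs_mul, abs_two]; gcongr; exact hL
    obtain ⟨a, b⟩ := abs_le.1 hrl
    have := sq_nonneg (rr u x - 1)
    rw [e, show LL u x = Real.log ((rr u x + pd 2 u x) * (1/2)) from rfl] at *
    rw [abs_le]
    have := sq_nonneg (SS lam u x)
    have hS2 : 2 * SS lam u x * SS lam u x = 2 * SS lam u x ^ 2 := by ring
    constructor <;> linarith only [a, b, hd0, hd1, hrr, this, hS2, sq_nonneg (rr u x - 1)]

lemma brackets (h : Reg lam u x) (hl : 0 ≤ lam) :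
    (∀ i : Fin 3, i ≠ 2 → |latB i u x| ≤ 12 * SS lam u x * (|qv 0 u x| + |qv 1 u x|) +
      9 * Real.sqrt (SS lam u x) * |AA u x|) ∧
    |verB u x| ≤ 64 * (Real.sqrt (SS lam u x) * (|qv 0 u x| + |qv 1 u x|) + |AA u x|) := by
  obtain ⟨hrlo, hrhi, hplo, hphi, hls, hS3, hlat, hha, hhk, hkap, -, hG0, hG1⟩ := h
  set S := SS lam u x
  set t := Real.sqrt S
  set Q := |qv 0 u x| + |qv 1 u x| with hQ
  set A := AA u x with hA
  set r := rr u x
  set G := GG u x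
  have hS : 0 ≤ S := hl.trans hls
  have ht : t * t = S := Real.mul_self_sqrt hS
  have ht0 : 0 ≤ t := Real.sqrt_nonneg _
  have hQ0 : 0 ≤ Q := by positivity
  have hp2 : |pd 0 u x * qv 0 u x + pd 1 u x * qv 1 u x| ≤ t * Q := by
    refine (abs_add_le _ _).trans ?_
    rw [abs_mul, abs_mul, hQ, mul_add]
    gcongr
    · exact hlat 0 (by decide)
    · exact hlat 1 (by decide)
  have hq3 : |qv 2 u x| ≤ 2 * |A| + 2 * t * Q := by
    have e : qv 2 u x * pd 2 u x = A - (pd 0 u x * qv 0 u x + pd 1 u x * qv 1 u x) := by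
      simp only [hA, AA, Fin.sum_univ_three]; ring
    have h1 : |qv 2 u x| * pd 2 u x ≤ |A| + t * Q := by
      rw [← abs_of_pos (show 0 < pd 2 u x by linarith), ← abs_mul, e]
      exact (abs_sub _ _).trans (add_le_add le_rfl hp2)
    nlinarith [abs_nonneg (qv 2 u x)]
  have hr0 : 0 < r := by linarith
  have hri2 : r⁻¹ ≤ 4/3 := by
    rw [inv_le_comm₀ hr0 (by norm_num)]; norm_num; linarith
  have hr3 : (1 / r ^ 3) ≤ 3 := by
    rw [one_div, ← inv_pow]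
    calc r⁻¹ ^ 3 ≤ (4/3) ^ 3 := by gcongr
      _ ≤ 3 := by norm_num
  have hc1 : |2 * G / r + 2 * G ^ 2| ≤ 3 := by
    rw [abs_of_nonneg (by positivity), div_eq_mul_inv]
    calc 2 * G * r⁻¹ + 2 * G ^ 2 ≤ 2 * (2/3) * (4/3) + 2 * (2/3) ^ 2 := by gcongr
      _ ≤ 3 := by norm_num
  have hc2 : |1 / r ^ 3 - 2 * G ^ 2 / r| ≤ 3 := by
    have h2 : 0 ≤ 2 * G ^ 2 / r := by positivity
    have h3 : 2 * G ^ 2 / r ≤ 3 := by
      rw [div_eq_mul_inv]
      calc 2 * G ^ 2 * r⁻¹ ≤ 2 * (2/3) ^ 2 * (4/3) := by gcongr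
        _ ≤ 3 := by norm_num
    have h4 : (0:ℝ) ≤ 1 / r ^ 3 := by positivity
    rw [abs_le]; constructor <;> linarith
  refine ⟨fun i hi => ?_, ?_⟩
  · have h1 : |(kap u x - 2 * ha u x) * qv i u x| ≤ 6 * S * Q := by
      rw [abs_mul]
      gcongr
      · linarith [abs_sub (kap u x) (2 * ha u x), show |2 * ha u x| = 2 * |ha u x| by
          rw [abs_mul, abs_two]]
      · fin_cases i
        · exact le_add_of_nonneg_right (abs_nonneg _)
        · exact le_add_of_nonneg_left (abs_nonneg _)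
        · exact absurd rfl hi
    have h2 : |pd i u x * (2 * G / r + 2 * G ^ 2) * qv 2 u x| ≤ t * 3 * (2 * |A| + 2 * t * Q) := by
      rw [abs_mul, abs_mul]; gcongr; exact hlat i hi
    have h3 : |pd i u x * (1 / r ^ 3 - 2 * G ^ 2 / r) * A| ≤ t * 3 * |A| := by
      rw [abs_mul, abs_mul]; gcongr; exact hlat i hi
    calc |latB i u x| ≤ 6 * S * Q + t * 3 * (2 * |A| + 2 * t * Q) + t * 3 * |A| :=
          (abs_sub _ _).trans (add_le_add ((abs_add_le _ _).trans (add_le_add h1 h2)) h3)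
      _ = _ := by linear_combination 6 * Q * ht
  · have h1 : |(kap u x - ha u x) * qv 2 u x| ≤ 15 * (2 * |A| + 2 * t * Q) := by
      rw [abs_mul]
      gcongr
      linarith [abs_sub (kap u x) (ha u x)]
    have h2 : |2 * G / r * (pd 0 u x * qv 0 u x + pd 1 u x * qv 1 u x)| ≤ 2 * (t * Q) := by
      rw [abs_mul]
      gcongr
      rw [abs_of_nonneg (by positivity), div_eq_mul_inv]
      calc 2 * G * r⁻¹ ≤ 2 * (2/3) * (4/3) := by gcongr
        _ ≤ 2 := by norm_num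
    have h3 : |(pd 2 u x * A - r ^ 2 * qv 2 u x) / r ^ 3| ≤
        (5/4 * |A| + 9/4 * (2 * |A| + 2 * t * Q)) * 3 := by
      rw [div_eq_mul_inv, abs_mul, abs_of_pos (by positivity : 0 < (r ^ 3)⁻¹), ← one_div]
      gcongr
      refine (abs_sub _ _).trans ?_
      rw [abs_mul, abs_mul, abs_of_pos (show 0 < pd 2 u x by linarith),
        abs_of_pos (by positivity : 0 < r ^ 2)]
      gcongr
      nlinarith
    have := abs_nonneg A
    have : 0 ≤ t * Q := by positivity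
    calc |verB u x| ≤ 15 * (2 * |A| + 2 * t * Q) + 2 * (t * Q) +
          (5/4 * |A| + 9/4 * (2 * |A| + 2 * t * Q)) * 3 :=
          (abs_sub _ _).trans (add_le_add ((abs_sub _ _).trans (add_le_add h1 h2)) h3)
      _ ≤ _ := by linarith

/-- weighted Young inequality -/
lemma young {a b η : ℝ} (hη : 0 < η) : a * b ≤ η * a ^ 2 + b ^ 2 / η := by
  have : η * a ^ 2 + b ^ 2 / η - a * b = ((η * a - b) ^ 2 + η * a * b) / η := by field_simp; ring
  rcases le_total (a * b) 0 with h | h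
  · have : 0 ≤ η * a ^ 2 + b ^ 2 / η := by positivity
    linarith
  · have h2 : 0 ≤ ((η * a - b) ^ 2 + η * a * b) / η := by
      refine div_nonneg ?_ hη.le
      rw [mul_assoc]; positivity
    linarith

/-- bounds of the derivatives of a cutoff with powers of the cutoff -/
structure DerivBd (c lam z : ℝ) (φ : E3 → ℝ) (x : E3) : Prop where
  d1 : ∀ i : Fin 3, i ≠ 2 → |pd i φ x| ≤ c * z ^ 7 / Real.sqrt lam
  d1t : |pd 2 φ x| ≤ c * z ^ 7
  d2 : ∀ i j : Fin 3, |pd2 i j φ x| ≤ c * z ^ 6 / lam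
  d2t : ∀ i : Fin 3, |pd2 i 2 φ x| ≤ c * z ^ 6 / Real.sqrt lam ∧ |pd2 2 i φ x| ≤ c * z ^ 6 / Real.sqrt lam
  d2tt : |pd2 2 2 φ x| ≤ c * z ^ 6

lemma second_order {φ : E3 → ℝ} {c z : ℝ} (h : Reg lam u x) (hl : 0 < lam) (hl1 : lam ≤ 1)
    (hc : 0 ≤ c) (hz : 0 ≤ z) (hd : DerivBd c lam z φ x) :
    |∑ i, ∑ j, pd2 j i φ x * hh i u x * pd j u x| + |(∑ j, pd2 j j φ x) * MM u x| ≤
      39 * c * (z ^ 6 * SS lam u x ^ 2 / lam) := by
  obtain ⟨-, -, hplo, hphi, hls, -, hlat, hha, hhk, -, hMM, -, -⟩ := h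
  obtain ⟨-, -, d2, d2t, d2tt⟩ := hd
  set S := SS lam u x
  set t := Real.sqrt S
  set s := Real.sqrt lam
  have hS : 0 ≤ S := hl.le.trans hls
  have ht : t ^ 2 = S := Real.sq_sqrt hS
  have hs : 0 < s := Real.sqrt_pos.2 hl
  have hs2 : s ^ 2 = lam := Real.sq_sqrt hl.le
  have hst : s ≤ t := Real.sqrt_le_sqrt hls
  set U := z ^ 6 * S ^ 2 / lam with hU
  have hU0 : 0 ≤ U := by positivity
  have hz6 : 0 ≤ z ^ 6 := by positivity
  have e1 : z ^ 6 * S ≤ U := by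
    rw [hU, le_div_iff₀ hl, mul_assoc]
    exact mul_le_mul_of_nonneg_left (by nlinarith only [hS, hls]) hz6
  have e2 : z ^ 6 / s * (S * t) ≤ U := by
    rw [hU, div_mul_eq_mul_div, div_le_div_iff₀ hs hl,
      show z ^ 6 * (S * t) * lam = z ^ 6 * (S * t * lam) by ring,
      show z ^ 6 * S ^ 2 * s = z ^ 6 * (S ^ 2 * s) by ring]
    refine mul_le_mul_of_nonneg_left ?_ hz6
    calc S * t * lam = S * (t * s * s) := by rw [← hs2]; ring
      _ ≤ S * (t * t * s) := by gcongr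
      _ = _ := by rw [← ht]; ring
  have hp : |pd 2 u x| ≤ 5/4 := abs_le.2 ⟨by linarith only [hplo], hphi⟩
  have hcU : 0 ≤ c * U := mul_nonneg hc hU0
  have e3 : ∀ i j : Fin 3, |pd2 j i φ x * hh i u x * pd j u x| ≤ 3 * c * U := by
    intro i j
    rw [abs_mul, abs_mul]
    by_cases hi : i = 2
    · subst hi
      rw [show hh 2 u x = hk u x by simp [hh]]
      by_cases hj : j = 2
      · subst hj
        calc _ ≤ c * z ^ 6 * S * (5/4) := by gcongr
          _ = 5/4 * c * (z ^ 6 * S) := by ring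
          _ ≤ 5/4 * c * U := by gcongr
          _ ≤ _ := by linarith only [hcU]
      · calc _ ≤ c * z ^ 6 / s * S * t := by
              gcongr
              · exact (d2t j).1
              · exact hlat j hj
          _ = c * (z ^ 6 / s * (S * t)) := by ring
          _ ≤ c * U := by gcongr
          _ ≤ _ := by linarith only [hcU]
    · rw [show hh i u x = ha u x * pd i u x by simp [hh, hi], abs_mul]
      by_cases hj : j = 2
      · subst hj
        calc _ ≤ c * z ^ 6 / s * (S * t) * (5/4) := by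
              gcongr
              · exact (d2t i).2
              · exact hlat i hi
          _ = 5/4 * c * (z ^ 6 / s * (S * t)) := by ring
          _ ≤ 5/4 * c * U := by gcongr
          _ ≤ _ := by linarith only [hcU]
      · calc _ ≤ c * z ^ 6 / lam * (S * t) * t := by
              gcongr
              · exact d2 j i
              · exact hlat i hi
              · exact hlat j hj
          _ = c * U := by rw [hU, ← ht]; ring
          _ ≤ _ := by linarith only [hcU]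
  have e4 : ∀ j : Fin 3, |pd2 j j φ x * MM u x| ≤ 4 * c * U := fun j => by
    rw [abs_mul]
    calc _ ≤ c * z ^ 6 / lam * (4 * S ^ 2) := by gcongr; exact d2 j j
      _ = _ := by rw [hU]; ring
  have sum1 : |∑ i, ∑ j, pd2 j i φ x * hh i u x * pd j u x| ≤ 27 * c * U :=
    calc _ ≤ ∑ i : Fin 3, ∑ j : Fin 3, |pd2 j i φ x * hh i u x * pd j u x| :=
          (Finset.abs_sum_le_sum_abs _ _).trans
            (Finset.sum_le_sum fun i _ => Finset.abs_sum_le_sum_abs _ _)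
      _ ≤ ∑ i : Fin 3, ∑ j : Fin 3, 3 * c * U :=
          Finset.sum_le_sum fun i _ => Finset.sum_le_sum fun j _ => e3 i j
      _ = _ := by simp; ring
  have sum2 : |(∑ j, pd2 j j φ x) * MM u x| ≤ 12 * c * U := by
    rw [Finset.sum_mul]
    calc _ ≤ ∑ j : Fin 3, |pd2 j j φ x * MM u x| := Finset.abs_sum_le_sum_abs _ _
      _ ≤ ∑ j : Fin 3, 4 * c * U := Finset.sum_le_sum fun j _ => e4 j
      _ = _ := by simp; ring
  linarith only [sum1, sum2]

/-- scalar absorption of the first order terms -/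
lemma first_order {z η lam ε S t s Q E T f : ℝ} (hl : 0 < lam) (hε : 0 ≤ ε)
    (hεl : ε ≤ lam) (hls : lam ≤ S) (hS3 : S ≤ 3) (hz : 0 ≤ z) (hz1 : z ≤ 1) (hη : 0 < η)
    (ht0 : 0 ≤ t) (ht : t ^ 2 = S) (hs : 0 < s) (hs2 : s ^ 2 = lam) (hs1 : s ≤ 1)
    (hQ : Q ^ 2 ≤ 2 * E) :
    24 * (z ^ 7 / s * S * Q) + 18 * (z ^ 7 / s * t * |f| + z ^ 7 / s * t * (ε * |T|))
      + 64 * (z ^ 7 * t * Q) + 64 * (z ^ 7 * |f| + z ^ 7 * (ε * |T|)) ≤
      250 * (η * z ^ 8 * (E + ε * T ^ 2)) + 250 * (z ^ 6 * S ^ 2 / lam / η) + 250 * (|f| / s) := by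
  have hS : 0 ≤ S := hl.le.trans hls
  set U := z ^ 6 * S ^ 2 / lam with hU
  have hz6 : 0 ≤ z ^ 6 := by positivity
  have ht2 : t ≤ 2 := by nlinarith only [ht, hS3, ht0]
  have e1 : z ^ 6 * S ≤ U := by
    rw [hU, le_div_iff₀ hl, mul_assoc]
    exact mul_le_mul_of_nonneg_left (by nlinarith only [hS, hls]) hz6
  have y1 : z ^ 7 / s * S * Q ≤ η * z ^ 8 * (2 * E) + U / η :=
    calc z ^ 7 / s * S * Q = (z ^ 4 * Q) * (z ^ 3 * S / s) := by ring
      _ ≤ η * (z ^ 4 * Q) ^ 2 + (z ^ 3 * S / s) ^ 2 / η := young hη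
      _ = η * z ^ 8 * Q ^ 2 + U / η := by rw [hU, ← hs2]; ring
      _ ≤ _ := by gcongr
  have y2 : z ^ 7 / s * t * (ε * |T|) ≤ η * z ^ 8 * (ε * T ^ 2) + U / η :=
    calc z ^ 7 / s * t * (ε * |T|) = ε * ((z ^ 4 * |T|) * (z ^ 3 * t / s)) := by ring
      _ ≤ ε * (η * (z ^ 4 * |T|) ^ 2 + (z ^ 3 * t / s) ^ 2 / η) :=
          mul_le_mul_of_nonneg_left (young hη) hε
      _ = η * z ^ 8 * (ε * T ^ 2) + z ^ 6 * (ε * S) / lam / η := by
          rw [← hs2, ← ht, ← sq_abs T]; ring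
      _ ≤ _ := by rw [hU, sq S]; gcongr; exact hεl.trans hls
  have y3 : z ^ 7 * t * Q ≤ η * z ^ 8 * (2 * E) + U / η :=
    calc z ^ 7 * t * Q = (z ^ 4 * Q) * (z ^ 3 * t) := by ring
      _ ≤ η * (z ^ 4 * Q) ^ 2 + (z ^ 3 * t) ^ 2 / η := young hη
      _ = η * z ^ 8 * Q ^ 2 + z ^ 6 * S / η := by rw [← ht]; ring
      _ ≤ _ := by gcongr
  have y4 : z ^ 7 * (ε * |T|) ≤ η * z ^ 8 * (ε * T ^ 2) + U / η :=
    calc z ^ 7 * (ε * |T|) = ε * ((z ^ 4 * |T|) * z ^ 3) := by ring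
      _ ≤ ε * (η * (z ^ 4 * |T|) ^ 2 + (z ^ 3) ^ 2 / η) :=
          mul_le_mul_of_nonneg_left (young hη) hε
      _ = η * z ^ 8 * (ε * T ^ 2) + z ^ 6 * ε / η := by rw [← sq_abs T]; ring
      _ ≤ η * z ^ 8 * (ε * T ^ 2) + z ^ 6 * S / η := by gcongr; exact hεl.trans hls
      _ ≤ _ := by gcongr
  have hz7 : z ^ 7 ≤ 1 := pow_le_one₀ hz hz1
  have y5 : z ^ 7 / s * t * |f| ≤ 2 * (|f| / s) :=
    calc _ ≤ 1 / s * 2 * |f| := by gcongr
      _ = _ := by ring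
  have y6 : z ^ 7 * |f| ≤ |f| / s := by
    rw [le_div_iff₀ hs]
    calc z ^ 7 * |f| * s ≤ 1 * |f| * 1 := by gcongr
      _ = _ := by ring
  have h1 : 0 ≤ η * z ^ 8 * E := by
    have : 0 ≤ E := by nlinarith only [hQ, sq_nonneg Q]
    positivity
  have h2 : 0 ≤ η * z ^ 8 * (ε * T ^ 2) := by positivity
  have h3 : 0 ≤ U / η := by positivity
  have h4 : 0 ≤ |f| / s := by positivity
  linarith only [y1, y2, y3, y4, y5, y6, h1, h2, h3, h4]

lemma R1_bound {φ : E3 → ℝ} {c z η : ℝ} (h : Reg lam u x) (hl : 0 < lam) (hl1 : lam ≤ 1)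
    (hε : 0 ≤ ε) (hεl : ε ≤ lam) (hc : 0 ≤ c) (hz : 0 ≤ z) (hz1 : z ≤ 1) (hη : 0 < η) (hη1 : η ≤ 1)
    (hd : DerivBd c lam z φ x) :
    |R1 φ u x| ≤ 250 * c * (η * z ^ 8 * (qv 0 u x ^ 2 + qv 1 u x ^ 2 + ε * trH u x ^ 2))
      + 500 * c / η * (z ^ 6 * SS lam u x ^ 2 / lam) + 250 * c * (|res ε u x| / Real.sqrt lam) := by
  have hsec := second_order h hl hl1 hc hz hd
  obtain ⟨hlatB, hverB⟩ := brackets h hl.le
  obtain ⟨d1, d1t, -, -, -⟩ := hd
  set S := SS lam u x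
  set t := Real.sqrt S
  set s := Real.sqrt lam
  set Q := |qv 0 u x| + |qv 1 u x| with hQd
  set T := trH u x
  set f := res ε u x
  have hls : lam ≤ S := h.lam_le
  have hS : 0 ≤ S := hl.le.trans hls
  have hs : 0 < s := Real.sqrt_pos.2 hl
  have hQ0 : 0 ≤ Q := by positivity
  have hA : |AA u x| ≤ |f| + ε * |T| := by
    rw [show AA u x = f - ε * T by simp only [f, res_eq, T]; ring]
    refine (abs_sub _ _).trans ?_
    rw [abs_mul, abs_of_nonneg hε]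
  have hQ2 : Q ^ 2 ≤ 2 * (qv 0 u x ^ 2 + qv 1 u x ^ 2) := by
    rw [hQd, ← sq_abs (qv 0 u x), ← sq_abs (qv 1 u x)]
    nlinarith only [sq_nonneg (|qv 0 u x| - |qv 1 u x|)]
  have hfo := first_order (t := t) (z := z) (η := η) (T := T) (f := f) hl hε hεl hls h.S_le hz hz1 hη
    (Real.sqrt_nonneg S) (Real.sq_sqrt hS) hs (Real.sq_sqrt hl.le) (Real.sqrt_le_one.2 hl1) hQ2
  have l0 : ∀ i : Fin 3, i ≠ 2 → |pd i φ x * latB i u x| ≤
      c * z ^ 7 / s * (12 * S * Q + 9 * t * (|f| + ε * |T|)) := fun i hi => by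
    rw [abs_mul]; gcongr
    · exact d1 i hi
    · exact (hlatB i hi).trans (by gcongr)
  have l2 : |pd 2 φ x * verB u x| ≤ c * z ^ 7 * (64 * (t * Q + (|f| + ε * |T|))) := by
    rw [abs_mul]; gcongr
    exact hverB.trans (by gcongr)
  set U := z ^ 6 * S ^ 2 / lam
  have hU : 0 ≤ U := by positivity
  have hUη : c * U ≤ c * (U / η) := by
    gcongr
    exact le_div_self hU hη hη1
  have hfirst := mul_le_mul_of_nonneg_left hfo hc
  have tri : ∀ a b d e g : ℝ, |a + b + d - e - g| ≤ |a| + |b| + |d| + (|e| + |g|) := by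
    intro a b d e g
    linarith only [abs_sub (a + b + d - e) g, abs_sub (a + b + d) e, abs_add_le (a + b) d,
      abs_add_le a b]
  calc |R1 φ u x| ≤ 2 * (c * z ^ 7 / s * (12 * S * Q + 9 * t * (|f| + ε * |T|))) +
        c * z ^ 7 * (64 * (t * Q + (|f| + ε * |T|))) + 39 * c * (U / η) := by
        refine (tri _ _ _ _ _).trans ?_
        linarith only [l0 0 (by decide), l0 1 (by decide), l2, hsec, hUη]
    _ ≤ _ := by
        have : 0 ≤ c * (U / η) := by positivity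
        have r1 : 2 * (c * z ^ 7 / s * (12 * S * Q + 9 * t * (|f| + ε * |T|))) +
            c * z ^ 7 * (64 * (t * Q + (|f| + ε * |T|))) =
            c * (24 * (z ^ 7 / s * S * Q) + 18 * (z ^ 7 / s * t * |f| + z ^ 7 / s * t * (ε * |T|))
              + 64 * (z ^ 7 * t * Q) + 64 * (z ^ 7 * |f| + z ^ 7 * (ε * |T|))) := by ring
        have r2 : 500 * c / η * U = 500 * (c * (U / η)) := by ring
        rw [r1, r2]
        linarith only [hfirst, this]

/-- algebraic core of the deficit bound -/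
lemma product_bound {a X g K : ℝ} (hX : 0 ≤ X) (hK : 0 ≤ K) (hg : |g| ≤ 1/4)
    (ha : a = X - 2 * g + g ^ 2) (ht : X - 3/2 * g + g ^ 2 ≤ K) :
    a ^ 2 + X ^ 2 + g ^ 2 ≤ 152 * (-g * a) + 2000 * K ^ 2 := by
  obtain ⟨hg1, hg2⟩ := abs_le.1 hg
  rcases le_total 0 g with h | h
  · have h1 : g / 2 - K ≤ -a := by nlinarith
    have h2 : g * (g / 2 - K) ≤ g * (-a) := mul_le_mul_of_nonneg_left h1 h
    have h3 : X ≤ 3/2 * g + K := by nlinarith
    have h5 : |a| ≤ 4 * g + K := by rw [abs_le]; constructor <;> nlinarith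
    have h6 : a ^ 2 ≤ (4 * g + K) ^ 2 := by rw [← sq_abs]; gcongr
    have h7 : X ^ 2 ≤ (3/2 * g + K) ^ 2 := by gcongr
    nlinarith [sq_nonneg (g - 4 * K), sq_nonneg (g - K)]
  · have h1 : -g ≤ K := by nlinarith
    have h3 : X ≤ K := by nlinarith
    have h5 : |a| ≤ 4 * K := by rw [abs_le]; constructor <;> nlinarith
    have h6 : a ^ 2 ≤ (4 * K) ^ 2 := by rw [← sq_abs]; gcongr
    have h7 : X ^ 2 ≤ K ^ 2 := by gcongr
    have h8 : g ^ 2 ≤ K ^ 2 := by nlinarith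
    have h9 : -(4 * K * K) ≤ -g * a := by nlinarith [neg_abs_le a]
    nlinarith

end Vale.Agent.P080.C1.Energy
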